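import Vale.Agent.Lib.P247.Defs

open scoped ContDiff

namespace Vale.Agent.Lib.P247

lemma coef_add (α β : Alt 2) (i j : Fin 4) : coef (α + β) i j = coef α i j + coef β i j := by
  simp [coef]

lemma coef_sub (α β : Alt 2) (i j : Fin 4) : coef (α - β) i j = coef α i j - coef β i j := by
  simp [coef]

lemma coef_smul (c : ℝ) (α : Alt 2) (i j : Fin 4) : coef (c • α) i j = c * coef α i j := by
  simp [coef]

lemma coef_zero (i j : Fin 4) : coef (0 : Alt 2) i j = 0 := by
  simp [coef]

lemma wedge_comm (α β : Alt 2) : wedge α β = wedge β α := by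
  unfold wedge; ring

lemma wedge_add_left (α β γ : Alt 2) : wedge (α + β) γ = wedge α γ + wedge β γ := by
  simp only [wedge, coef_add]; ring

lemma wedge_add_right (α β γ : Alt 2) : wedge α (β + γ) = wedge α β + wedge α γ := by
  simp only [wedge, coef_add]; ring

lemma wedge_sub_left (α β γ : Alt 2) : wedge (α - β) γ = wedge α γ - wedge β γ := by
  simp only [wedge, coef_sub]; ring

lemma wedge_sub_right (α β γ : Alt 2) : wedge α (β - γ) = wedge α β - wedge α γ := by
  simp only [wedge, coef_sub]; ring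

lemma wedge_smul_left (c : ℝ) (α β : Alt 2) : wedge (c • α) β = c * wedge α β := by
  simp only [wedge, coef_smul]; ring

lemma wedge_smul_right (c : ℝ) (α β : Alt 2) : wedge α (c • β) = c * wedge α β := by
  simp only [wedge, coef_smul]; ring

lemma wedge_zero_left (β : Alt 2) : wedge 0 β = 0 := by
  simp only [wedge, coef_zero]; ring

/-- self-dual coordinates -/
def sd (α : Alt 2) : Fin 3 → ℝ :=
  ![coef α 0 1 + coef α 2 3, coef α 0 2 - coef α 1 3, coef α 0 3 + coef α 1 2]

lemma wedge_self_le_of_sd_eq_zero (α : Alt 2) (h : sd α = 0) : wedge α α ≤ 0 := by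
  have h0 : coef α 0 1 + coef α 2 3 = 0 := by simpa [sd] using congrFun h 0
  have h1 : coef α 0 2 - coef α 1 3 = 0 := by simpa [sd] using congrFun h 1
  have h2 : coef α 0 3 + coef α 1 2 = 0 := by simpa [sd] using congrFun h 2
  have e0 : coef α 2 3 = - coef α 0 1 := by linarith
  have e1 : coef α 1 3 = coef α 0 2 := by linarith
  have e2 : coef α 1 2 = - coef α 0 3 := by linarith
  unfold wedge
  rw [e0, e1, e2]
  nlinarith [sq_nonneg (coef α 0 1), sq_nonneg (coef α 0 2), sq_nonneg (coef α 0 3)]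

/-- Inertia: the wedge pairing on two-forms of `ℝ⁴` has signature `(3,3)`, so a form which is
wedge-orthogonal to a positive definite orthogonal triple has non-positive square. -/
lemma wedge_self_nonpos_of_orthogonal (c : Fin 3 → Alt 2) (l : ℝ) (hl : 0 < l)
    (hc : ∀ i j, wedge (c i) (c j) = if i = j then l else 0) (n : Alt 2)
    (hn : ∀ j, wedge n (c j) = 0) : wedge n n ≤ 0 := by
  by_contra hpos
  push Not at hpos
  -- the linear map (x, y) ↦ sd (∑ x_i c_i + y n)
  let T : (Fin 4 → ℝ) →ₗ[ℝ] (Fin 3 → ℝ) :=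
    { toFun := fun v => sd (v 0 • c 0 + v 1 • c 1 + v 2 • c 2 + v 3 • n)
      map_add' := by
        intro u v
        ext k
        fin_cases k <;> simp [sd, coef_add, coef_smul] <;> ring
      map_smul' := by
        intro r v
        ext k
        fin_cases k <;> simp [sd, coef_add, coef_smul] <;> ring }
  have hker : LinearMap.ker T ≠ ⊥ := by
    apply LinearMap.ker_ne_bot_of_finrank_lt
    simp
  obtain ⟨v, hv, hv0⟩ := (Submodule.ne_bot_iff _).1 hker
  have hT : sd (v 0 • c 0 + v 1 • c 1 + v 2 • c 2 + v 3 • n) = 0 := hv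
  have hle := wedge_self_le_of_sd_eq_zero _ hT
  have hexp : wedge (v 0 • c 0 + v 1 • c 1 + v 2 • c 2 + v 3 • n)
      (v 0 • c 0 + v 1 • c 1 + v 2 • c 2 + v 3 • n)
      = l * (v 0 ^ 2 + v 1 ^ 2 + v 2 ^ 2) + v 3 ^ 2 * wedge n n := by
    simp only [wedge_add_left, wedge_add_right, wedge_smul_left, wedge_smul_right, hc, hn,
      wedge_comm (c _) n]
    simp
    ring
  rw [hexp] at hle
  have hne : v 0 ≠ 0 ∨ v 1 ≠ 0 ∨ v 2 ≠ 0 ∨ v 3 ≠ 0 := by
    by_contra hcon
    push Not at hcon
    apply hv0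
    ext k
    fin_cases k <;> simp [hcon]
  rcases hne with h | h | h | h
  · have := pow_pos (abs_pos.2 h) 2
    rw [sq_abs] at this
    nlinarith [sq_nonneg (v 1), sq_nonneg (v 2), mul_nonneg (sq_nonneg (v 3)) hpos.le,
      mul_pos hl this, mul_nonneg hl.le (sq_nonneg (v 1)), mul_nonneg hl.le (sq_nonneg (v 2))]
  · have := pow_pos (abs_pos.2 h) 2
    rw [sq_abs] at this
    nlinarith [sq_nonneg (v 0), sq_nonneg (v 2), mul_nonneg (sq_nonneg (v 3)) hpos.le,
      mul_pos hl this, mul_nonneg hl.le (sq_nonneg (v 0)), mul_nonneg hl.le (sq_nonneg (v 2))]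
  · have := pow_pos (abs_pos.2 h) 2
    rw [sq_abs] at this
    nlinarith [sq_nonneg (v 0), sq_nonneg (v 1), mul_nonneg (sq_nonneg (v 3)) hpos.le,
      mul_pos hl this, mul_nonneg hl.le (sq_nonneg (v 0)), mul_nonneg hl.le (sq_nonneg (v 1))]
  · have := pow_pos (abs_pos.2 h) 2
    rw [sq_abs] at this
    nlinarith [mul_pos this hpos, mul_nonneg hl.le (sq_nonneg (v 0)),
      mul_nonneg hl.le (sq_nonneg (v 1)), mul_nonneg hl.le (sq_nonneg (v 2))]

end Vale.Agent.Lib.P247
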