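import Vale.Agent.Lib.P247.Algebra

open scoped ContDiff
open MeasureTheory

namespace Vale.Agent.Lib.P247

/-- component functions of a one-form -/
def comp (α : R4 → Alt 1) (j : Fin 4) (y : R4) : ℝ := α y ![e j]

lemma comp_contDiff {α : R4 → Alt 1} (h : ContDiff ℝ ∞ α) (j : Fin 4) :
    ContDiff ℝ ∞ (comp α j) := by
  unfold comp
  have : ContDiff ℝ ∞ (fun y => (ContinuousAlternatingMap.apply ℝ R4 ℝ ![e j]) (α y)) :=
    (ContinuousLinearMap.contDiff _).comp h
  simpa using this

lemma comp_periodic {α : R4 → Alt 1} (h : Periodic α) (j : Fin 4) : Periodic (comp α j) := by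
  intro k x
  simp [comp, h k x]

lemma coef_extDeriv {α : R4 → Alt 1} {x : R4} (h : DifferentiableAt ℝ α x) (i j : Fin 4) :
    coef (extDeriv α x) i j
      = fderiv ℝ (comp α j) x (e i) - fderiv ℝ (comp α i) x (e j) := by
  unfold coef
  rw [extDeriv_apply h]
  rw [Fin.sum_univ_two]
  have h0 : (0 : Fin 2).removeNth ![e i, e j] = ![e j] := by
    ext k; fin_cases k; simp [Fin.removeNth]
  have h1 : (1 : Fin 2).removeNth ![e i, e j] = ![e i] := by
    ext k; fin_cases k; simp [Fin.removeNth]
  simp only [h0, h1]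
  simp
  rfl

/-- The integral over the unit cube of the divergence of a periodic `C¹` vector field vanishes. -/
lemma integral_divergence_periodic (f : R4 → Fin 4 → ℝ) (hf : ∀ i, ContDiff ℝ ∞ (fun y => f y i))
    (hp : ∀ i, Periodic (fun y => f y i)) :
    ∫ x in Set.Icc (0 : R4) 1, ∑ i, fderiv ℝ (fun y => f y i) x (e i) = 0 := by
  have hcd : ContDiff ℝ ∞ f := contDiff_pi.2 hf
  have key := integral_divergence_of_hasFDerivAt_off_countable (E := ℝ) (n := 3) (0 : R4) 1
    (by intro i; simp) f
    (fun x => ContinuousLinearMap.pi (fun i => fderiv ℝ (fun y => f y i) x)) ∅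
    Set.countable_empty hcd.continuous.continuousOn
    (by
      intro x _
      rw [hasFDerivAt_pi]
      intro i
      exact ((hf i).differentiable (by simp)).differentiableAt.hasFDerivAt)
    (by
      apply Continuous.integrableOn_Icc
      apply continuous_finsetSum
      intro i _
      have h1 : Continuous (fderiv ℝ (fun y => f y i)) := (hf i).continuous_fderiv (by simp)
      simpa using h1.clm_apply continuous_const)
  have hsimp : ∀ x : R4, ∑ i, (ContinuousLinearMap.pi
      (fun i => fderiv ℝ (fun y => f y i) x)) (Pi.single i 1) i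
      = ∑ i, fderiv ℝ (fun y => f y i) x (e i) := by
    intro x
    simp [e]
  simp only [hsimp] at key
  rw [key]
  apply Finset.sum_eq_zero
  intro i _
  rw [sub_eq_zero]
  congr 1
  ext x
  have := hp i (Pi.single i 1) (i.insertNth (0 : ℝ) x)
  simp only at this
  simp only [Pi.one_apply, Pi.zero_apply]
  rw [← this]
  congr 1
  ext j
  rcases Fin.eq_self_or_eq_succAbove i j with rfl | ⟨k, rfl⟩
  · simp
  · simp [Fin.succAbove_ne]

lemma fderiv_lin3 {f g h : R4 → ℝ} {x : R4} (hf : DifferentiableAt ℝ f x)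
    (hg : DifferentiableAt ℝ g x) (hh : DifferentiableAt ℝ h x) (a b c : ℝ) (v : R4) :
    fderiv ℝ (fun y => a * f y + b * g y + c * h y) x v
      = a * fderiv ℝ f x v + b * fderiv ℝ g x v + c * fderiv ℝ h x v := by
  have : HasFDerivAt (fun y => a * f y + b * g y + c * h y)
      (a • fderiv ℝ f x + b • fderiv ℝ g x + c • fderiv ℝ h x) x :=
    ((hf.hasFDerivAt.const_mul a).add (hg.hasFDerivAt.const_mul b)).add
      (hh.hasFDerivAt.const_mul c)
  rw [this.fderiv]
  simp

/-- the vector field dual to the three-form `α ∧ c` -/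
def dualField (α : R4 → Alt 1) (c : Alt 2) (y : R4) : Fin 4 → ℝ :=
  ![coef c 2 3 * comp α 1 y + (- coef c 1 3) * comp α 2 y + coef c 1 2 * comp α 3 y,
    (- coef c 2 3) * comp α 0 y + coef c 0 3 * comp α 2 y + (- coef c 0 2) * comp α 3 y,
    coef c 1 3 * comp α 0 y + (- coef c 0 3) * comp α 1 y + coef c 0 1 * comp α 3 y,
    (- coef c 1 2) * comp α 0 y + coef c 0 2 * comp α 1 y + (- coef c 0 1) * comp α 2 y]

lemma wedge_extDeriv_eq_div {α : R4 → Alt 1} (h : ContDiff ℝ ∞ α) (c : Alt 2) (x : R4) :
    wedge (extDeriv α x) c = ∑ i, fderiv ℝ (fun y => dualField α c y i) x (e i) := by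
  have hd : DifferentiableAt ℝ α x := (h.differentiable (by simp)).differentiableAt
  have hc : ∀ j, DifferentiableAt ℝ (comp α j) x := fun j =>
    ((comp_contDiff h j).differentiable (by simp)).differentiableAt
  rw [Fin.sum_univ_four]
  have e0 : (fun y => dualField α c y 0) = fun y =>
      coef c 2 3 * comp α 1 y + (- coef c 1 3) * comp α 2 y + coef c 1 2 * comp α 3 y := rfl
  have e1 : (fun y => dualField α c y 1) = fun y =>
      (- coef c 2 3) * comp α 0 y + coef c 0 3 * comp α 2 y + (- coef c 0 2) * comp α 3 y := rfl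
  have e2 : (fun y => dualField α c y 2) = fun y =>
      coef c 1 3 * comp α 0 y + (- coef c 0 3) * comp α 1 y + coef c 0 1 * comp α 3 y := rfl
  have e3 : (fun y => dualField α c y 3) = fun y =>
      (- coef c 1 2) * comp α 0 y + coef c 0 2 * comp α 1 y + (- coef c 0 1) * comp α 2 y := rfl
  rw [e0, e1, e2, e3]
  rw [fderiv_lin3 (hc _) (hc _) (hc _), fderiv_lin3 (hc _) (hc _) (hc _),
    fderiv_lin3 (hc _) (hc _) (hc _), fderiv_lin3 (hc _) (hc _) (hc _)]
  unfold wedge
  simp only [coef_extDeriv hd]
  ring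

lemma integral_wedge_extDeriv {α : R4 → Alt 1} (h : IsFormOnTorus α) (c : Alt 2) :
    ∫ x in Set.Icc (0 : R4) 1, wedge (extDeriv α x) c = 0 := by
  simp only [wedge_extDeriv_eq_div h.1 c]
  apply integral_divergence_periodic
  · intro i
    have hc : ∀ j, ContDiff ℝ ∞ (comp α j) := fun j => comp_contDiff h.1 j
    fin_cases i
    · exact ((contDiff_const.mul (hc 1)).add (contDiff_const.mul (hc 2))).add
        (contDiff_const.mul (hc 3))
    · exact ((contDiff_const.mul (hc 0)).add (contDiff_const.mul (hc 2))).add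
        (contDiff_const.mul (hc 3))
    · exact ((contDiff_const.mul (hc 0)).add (contDiff_const.mul (hc 1))).add
        (contDiff_const.mul (hc 3))
    · exact ((contDiff_const.mul (hc 0)).add (contDiff_const.mul (hc 1))).add
        (contDiff_const.mul (hc 2))
  · intro i k x
    have hc : ∀ j, comp α j (x + fun j => (k j : ℝ)) = comp α j x :=
      fun j => comp_periodic h.2 j k x
    simp only [dualField, hc]

end Vale.Agent.Lib.P247
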