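import Mathlib

/-!
# Hypersymplectic structures on the four-torus `T⁴ = ℝ⁴/ℤ⁴`

Differential forms on `T⁴` are represented by `ℤ⁴`-periodic smooth differential forms on `ℝ⁴`
(in Mathlib's sense: maps `ℝ⁴ → ℝ⁴ [⋀^Fin k]→L[ℝ] ℝ`, with exterior derivative `extDeriv`).
-/

open scoped ContDiff

namespace Vale.Agent.Lib.P247

/-- `ℝ⁴`, the universal cover of `T⁴ = ℝ⁴/ℤ⁴`. -/
abbrev R4 : Type := Fin 4 → ℝ

/-- Constant-coefficient `k`-forms on `ℝ⁴`. -/
abbrev Alt (k : ℕ) : Type := R4 [⋀^Fin k]→L[ℝ] ℝ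

/-- The standard basis vector `e_i` of `ℝ⁴`. -/
def e (i : Fin 4) : R4 := Pi.single i 1

/-- The coefficient `α_{ij} = α(e_i, e_j)` of a two-form. -/
def coef (α : Alt 2) (i j : Fin 4) : ℝ := α ![e i, e j]

/-- The wedge product of two two-forms, as a multiple of the standard volume form
`dx⁰ ∧ dx¹ ∧ dx² ∧ dx³`:  `α ∧ β = wedge α β · dx⁰¹²³`. -/
def wedge (α β : Alt 2) : ℝ :=
  coef α 0 1 * coef β 2 3 - coef α 0 2 * coef β 1 3 + coef α 0 3 * coef β 1 2
    + coef α 1 2 * coef β 0 3 - coef α 1 3 * coef β 0 2 + coef α 2 3 * coef β 0 1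

/-- A map on `ℝ⁴` is `ℤ⁴`-periodic, i.e. descends to `T⁴`. -/
def Periodic {F : Type*} (f : R4 → F) : Prop :=
  ∀ (k : Fin 4 → ℤ) (x : R4), f (x + fun j => (k j : ℝ)) = f x

/-- A smooth `k`-form on `T⁴`. -/
def IsFormOnTorus {k : ℕ} (η : R4 → Alt k) : Prop :=
  ContDiff ℝ ∞ η ∧ Periodic η

/-- A hypersymplectic structure on `T⁴`: a triple of closed smooth two-forms such that the matrix
`(w_i ∧ w_j)` (relative to the standard volume form) is positive definite at every point. -/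
structure IsHypersymplectic (w : Fin 3 → R4 → Alt 2) : Prop where
  form : ∀ i, IsFormOnTorus (w i)
  closed : ∀ i x, extDeriv (w i) x = 0
  pos : ∀ x, (Matrix.of fun i j => wedge (w i x) (w j x)).PosDef

/-- A hyperkaehler triple on `T⁴`: a hypersymplectic structure with
`w_i ∧ w_j = δ_{ij} f dx⁰¹²³` for a positive function `f`. -/
def IsHyperkahlerTriple (w : Fin 3 → R4 → Alt 2) : Prop :=
  IsHypersymplectic w ∧ ∃ f : R4 → ℝ, (∀ x, 0 < f x) ∧
    ∀ x i j, wedge (w i x) (w j x) = if i = j then f x else 0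

/-- Two closed two-forms on `T⁴` are cohomologous: their difference is `dβ` for a smooth
one-form `β` on `T⁴`. -/
def Cohomologous (η η' : R4 → Alt 2) : Prop :=
  ∃ β : R4 → Alt 1, IsFormOnTorus β ∧ ∀ x, η' x - η x = extDeriv β x

/-- `W` is a cohomologous deformation of `w`: a family `W t`, smooth in `(t, x)`, of
hypersymplectic structures for `0 ≤ t ≤ 1`, with `W 0 = w` and `[W t i] = [w i]`. -/
structure IsCohomologousDeformation (w : Fin 3 → R4 → Alt 2) (W : ℝ → Fin 3 → R4 → Alt 2) :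
    Prop where
  smooth : ∀ i, ContDiff ℝ ∞ (fun p : ℝ × R4 => W p.1 i p.2)
  hyper : ∀ t ∈ Set.Icc (0 : ℝ) 1, IsHypersymplectic (W t)
  start : W 0 = w
  cohom : ∀ t ∈ Set.Icc (0 : ℝ) 1, ∀ i, Cohomologous (w i) (W t i)

/-- The Gram matrix `G_{ij} = ∫_{T⁴} w_i ∧ w_j`. -/
noncomputable def gram (w : Fin 3 → R4 → Alt 2) (i j : Fin 3) : ℝ :=
  ∫ x in Set.Icc (0 : R4) 1, wedge (w i x) (w j x)

/-- `w` is normalized: `G = I₃`. -/
def IsNormalized (w : Fin 3 → R4 → Alt 2) : Prop :=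
  ∀ i j, gram w i j = if i = j then 1 else 0

end Vale.Agent.Lib.P247
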