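import Vale.Agent.Lib.P247.Positivity

open scoped ContDiff
open MeasureTheory Matrix

namespace Vale.Agent.Lib.P247

/-- `a, b, c` span a three-dimensional subspace on which the wedge pairing is positive definite -/
def Pos3 (a b c : Alt 2) : Prop :=
  ∀ x y z : ℝ, (x ≠ 0 ∨ y ≠ 0 ∨ z ≠ 0) →
    0 < wedge (x • a + y • b + z • c) (x • a + y • b + z • c)

lemma Pos3.rotate {a b c : Alt 2} (h : Pos3 a b c) : Pos3 b c a := by
  intro x y z hxyz
  have := h z x y (by tauto)
  have e1 : x • b + y • c + z • a = z • a + x • b + y • c := by abel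
  rw [e1]; exact this

lemma Pos3.swap {a b c : Alt 2} (h : Pos3 a b c) : Pos3 a c b := by
  intro x y z hxyz
  have := h x z y (by tauto)
  have e1 : x • a + y • c + z • b = x • a + z • b + y • c := by abel
  rw [e1]; exact this

lemma pos3_of_posDef {v : Fin 3 → Alt 2}
    (h : (Matrix.of fun i j => wedge (v i) (v j)).PosDef) : Pos3 (v 0) (v 1) (v 2) := by
  intro x y z hxyz
  have h2 := (Matrix.posDef_iff_dotProduct_mulVec.1 h).2 (x := ![x, y, z]) (by
    intro h0
    have hx : x = 0 := by simpa using congrFun h0 0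
    have hy : y = 0 := by simpa using congrFun h0 1
    have hz : z = 0 := by simpa using congrFun h0 2
    tauto)
  have e : star ![x, y, z] ⬝ᵥ ((Matrix.of fun i j => wedge (v i) (v j)) *ᵥ ![x, y, z])
      = wedge (x • v 0 + y • v 1 + z • v 2) (x • v 0 + y • v 1 + z • v 2) := by
    simp only [wedge_add_left, wedge_add_right, wedge_smul_left, wedge_smul_right]
    simp [dotProduct, Matrix.mulVec, Fin.sum_univ_three]
    ring
  rw [e] at h2
  exact h2

lemma posDef_of_pos3 {v : Fin 3 → Alt 2} (h : Pos3 (v 0) (v 1) (v 2)) :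
    (Matrix.of fun i j => wedge (v i) (v j)).PosDef := by
  apply Matrix.PosDef.of_dotProduct_mulVec_pos
  · ext i j
    simp [wedge_comm (v j) (v i)]
  · intro u hu
    have h2 := h (u 0) (u 1) (u 2) (by
      by_contra hcon
      push Not at hcon
      apply hu
      ext k
      fin_cases k <;> simp [hcon])
    have e : star u ⬝ᵥ ((Matrix.of fun i j => wedge (v i) (v j)) *ᵥ u)
        = wedge (u 0 • v 0 + u 1 • v 1 + u 2 • v 2) (u 0 • v 0 + u 1 • v 1 + u 2 • v 2) := by
      simp only [wedge_add_left, wedge_add_right, wedge_smul_left, wedge_smul_right]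
      simp [dotProduct, Matrix.mulVec, Fin.sum_univ_three]
      ring
    rw [e]
    exact h2

/-- Inertia, general form. -/
lemma wedge_self_nonpos_of_orthogonal' {a b c : Alt 2} (h : Pos3 a b c) (n : Alt 2)
    (ha : wedge n a = 0) (hb : wedge n b = 0) (hc : wedge n c = 0) : wedge n n ≤ 0 := by
  by_contra hpos
  push Not at hpos
  let T : (Fin 4 → ℝ) →ₗ[ℝ] (Fin 3 → ℝ) :=
    { toFun := fun v => sd (v 0 • a + v 1 • b + v 2 • c + v 3 • n)
      map_add' := by
        intro u v
        ext k
        fin_cases k <;> simp [sd, coef_add, coef_smul] <;> ring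
      map_smul' := by
        intro r v
        ext k
        fin_cases k <;> simp [sd, coef_add, coef_smul] <;> ring }
  have hker : LinearMap.ker T ≠ ⊥ := by
    apply LinearMap.ker_ne_bot_of_finrank_lt
    simp
  obtain ⟨v, hv, hv0⟩ := (Submodule.ne_bot_iff _).1 hker
  have hT : sd (v 0 • a + v 1 • b + v 2 • c + v 3 • n) = 0 := hv
  have hle := wedge_self_le_of_sd_eq_zero _ hT
  have hexp : wedge (v 0 • a + v 1 • b + v 2 • c + v 3 • n)
      (v 0 • a + v 1 • b + v 2 • c + v 3 • n)
      = wedge (v 0 • a + v 1 • b + v 2 • c) (v 0 • a + v 1 • b + v 2 • c)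
        + v 3 ^ 2 * wedge n n := by
    simp only [wedge_add_left, wedge_add_right, wedge_smul_left, wedge_smul_right, ha, hb, hc,
      wedge_comm a n, wedge_comm b n, wedge_comm c n]
    ring
  rw [hexp] at hle
  by_cases h3 : v 0 ≠ 0 ∨ v 1 ≠ 0 ∨ v 2 ≠ 0
  · have := h _ _ _ h3
    nlinarith [mul_nonneg (sq_nonneg (v 3)) hpos.le]
  · push Not at h3
    have hv3 : v 3 ≠ 0 := by
      intro h4
      apply hv0
      ext k
      fin_cases k <;> simp [h3, h4]
    have := pow_pos (abs_pos.2 hv3) 2
    rw [sq_abs] at this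
    simp only [h3.1, h3.2.1, h3.2.2, zero_smul, add_zero, wedge_zero_left] at hle
    nlinarith [mul_pos this hpos]

/-- One stage of the deformation. -/
lemma Pos3.stage {a b v c' : Alt 2} (h : Pos3 a b v) (hc' : 0 < wedge c' c')
    (ha : wedge a c' = 0) (hb : wedge b c' = 0) (hv : 0 ≤ wedge v c') {t : ℝ}
    (ht : t ∈ Set.Icc (0 : ℝ) 1) : Pos3 a b ((1 - t) • v + t • c') := by
  intro x y z hxyz
  have hexp : wedge (x • a + y • b + z • ((1 - t) • v + t • c'))
      (x • a + y • b + z • ((1 - t) • v + t • c'))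
      = wedge (x • a + y • b + (z * (1 - t)) • v) (x • a + y • b + (z * (1 - t)) • v)
        + 2 * z ^ 2 * t * (1 - t) * wedge v c' + z ^ 2 * t ^ 2 * wedge c' c' := by
    simp only [wedge_add_left, wedge_add_right, wedge_smul_left, wedge_smul_right, ha, hb,
      wedge_comm c' a, wedge_comm c' b, wedge_comm c' v]
    ring
  rw [hexp]
  have h1t : 0 ≤ 1 - t := by linarith [ht.2]
  have t2 : 0 ≤ 2 * z ^ 2 * t * (1 - t) * wedge v c' := by
    have := ht.1
    positivity
  have t3 : 0 ≤ z ^ 2 * t ^ 2 * wedge c' c' := by positivity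
  by_cases hcase : x ≠ 0 ∨ y ≠ 0 ∨ z * (1 - t) ≠ 0
  · have := h _ _ _ hcase
    linarith
  · push Not at hcase
    obtain ⟨hx, hy, hz⟩ := hcase
    have hz0 : z ≠ 0 := by
      rcases hxyz with h | h | h
      · exact absurd hx h
      · exact absurd hy h
      · exact h
    have ht1 : t = 1 := by
      rcases mul_eq_zero.1 hz with h | h
      · exact absurd h hz0
      · linarith
    subst ht1
    have := pow_pos (abs_pos.2 hz0) 2
    rw [sq_abs] at this
    simp only [hx, hy, zero_smul, sub_self, mul_zero, add_zero, wedge_zero_left, zero_mul]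
    have := mul_pos this hc'
    simpa using this

end Vale.Agent.Lib.P247
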