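import Vale.Agent.Lib.P247.Stokes
import Vale.Agent.Lib.P247.Triangular

open scoped ContDiff
open MeasureTheory

namespace Vale.Agent.Lib.P247

lemma continuous_wedge {η η' : R4 → Alt 2} (h : Continuous η) (h' : Continuous η') :
    Continuous (fun x => wedge (η x) (η' x)) := by
  unfold wedge
  have := fun i j => continuous_coef h i j
  have := fun i j => continuous_coef h' i j
  fun_prop

/-- The Gram matrix is cohomological. -/
lemma gram_eq {w : Fin 3 → R4 → Alt 2} (hw : IsHypersymplectic w) {c : Fin 3 → Alt 2}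
    (hcoh : ∀ i, Cohomologous (fun _ => c i) (w i)) (i j : Fin 3) :
    gram w i j = wedge (c i) (c j) := by
  unfold gram
  obtain ⟨β, hβ, h⟩ := hcoh i
  have h1 : ∀ x, wedge (w i x) (w j x) = wedge (w j x) (c i) + wedge (extDeriv β x) (w j x) := by
    intro x
    rw [← h x, wedge_sub_left, wedge_comm (w j x) (c i)]
    ring
  simp only [h1]
  rw [integral_add (continuous_wedge_const (hw.form j).1.continuous _).integrableOn_Icc
    (continuous_wedge (continuous_extDeriv hβ.1) (hw.form j).1.continuous).integrableOn_Icc,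
    integral_wedge_extDeriv_closed hβ (hw.form j) (hw.closed j),
    integral_wedge_of_cohomologous (hcoh j), wedge_comm]
  simp

lemma const_of_normalized {w : Fin 3 → R4 → Alt 2} (hw : IsHypersymplectic w)
    (hn : IsNormalized w) {c : Fin 3 → Alt 2}
    (hcoh : ∀ i, Cohomologous (fun _ => c i) (w i)) (i j : Fin 3) :
    wedge (c i) (c j) = if i = j then 1 else 0 := by
  rw [← gram_eq hw hcoh, hn]

/-- time reparametrisations for the three stages -/
noncomputable def tau (i : Fin 3) (t : ℝ) : ℝ :=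
  Real.smoothTransition (3 * t - (2 - (i : ℕ) : ℝ))

/-- the three-stage path -/
noncomputable def stagePath (w : Fin 3 → R4 → Alt 2) (c : Fin 3 → Alt 2) (t : ℝ) (i : Fin 3)
    (x : R4) : Alt 2 := linPath w c (tau i t) i x

lemma tau_mem (i : Fin 3) (t : ℝ) : tau i t ∈ Set.Icc (0 : ℝ) 1 :=
  ⟨Real.smoothTransition.nonneg _, Real.smoothTransition.le_one _⟩

lemma tau_contDiff (i : Fin 3) : ContDiff ℝ ∞ (tau i) := by
  unfold tau
  exact Real.smoothTransition.contDiff.comp ((contDiff_const.mul contDiff_id).sub contDiff_const)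

lemma pos_of_ne_zero' {η : R4 → Alt 2} (hη : Continuous η) {c' c : Alt 2}
    (hcoh : Cohomologous (fun _ => c') η) (hpos : 0 < wedge c' c)
    (hne : ∀ x, wedge (η x) c ≠ 0) (x : R4) : 0 < wedge (η x) c := by
  apply pos_of_ne_zero_of_integral_pos (continuous_wedge_const hη c) hne
  rw [integral_wedge_of_cohomologous hcoh]
  exact hpos

lemma linPath_zero (w : Fin 3 → R4 → Alt 2) (c : Fin 3 → Alt 2) (i : Fin 3) (x : R4) :
    linPath w c 0 i x = w i x := by
  simp [linPath]

lemma linPath_one (w : Fin 3 → R4 → Alt 2) (c : Fin 3 → Alt 2) (i : Fin 3) (x : R4) :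
    linPath w c 1 i x = c i := by
  simp [linPath]

section stages

variable {w : Fin 3 → R4 → Alt 2} {c : Fin 3 → Alt 2} {l : ℝ}

lemma stage1 (hw : IsHypersymplectic w) (hl : 0 < l)
    (hc : ∀ i j, wedge (c i) (c j) = if i = j then l else 0)
    (hcoh : ∀ i, Cohomologous (fun _ => c i) (w i))
    (h02 : ∀ x, wedge (w 0 x) (c 2) = 0) (h12 : ∀ x, wedge (w 1 x) (c 2) = 0)
    (y : R4) (s : ℝ) (hs : s ∈ Set.Icc (0 : ℝ) 1) :
    Pos3 (w 0 y) (w 1 y) (linPath w c s 2 y) := by
  have hcc : 0 < wedge (c 2) (c 2) := by rw [hc]; simpa using hl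
  have P0 : ∀ y, Pos3 (w 0 y) (w 1 y) (w 2 y) := fun y =>
    pos3_of_posDef (v := fun i => w i y) (hw.pos y)
  have a2 : ∀ y, 0 < wedge (w 2 y) (c 2) := by
    apply pos_of_ne_zero' (hw.form 2).1.continuous (hcoh 2) hcc
    intro y hy
    have := wedge_self_nonpos_of_orthogonal' (P0 y) (c 2)
      (by rw [wedge_comm]; exact h02 y)
      (by rw [wedge_comm]; exact h12 y) (by rw [wedge_comm]; exact hy)
    linarith
  exact (P0 y).stage hcc (h02 y) (h12 y) (a2 y).le hs

lemma stage2 (hw : IsHypersymplectic w) (hl : 0 < l)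
    (hc : ∀ i j, wedge (c i) (c j) = if i = j then l else 0)
    (hcoh : ∀ i, Cohomologous (fun _ => c i) (w i))
    (P1 : ∀ y, Pos3 (w 0 y) (w 1 y) (c 2))
    (h01 : ∀ x, wedge (w 0 x) (c 1) = 0)
    (y : R4) (s : ℝ) (hs : s ∈ Set.Icc (0 : ℝ) 1) :
    Pos3 (w 0 y) (linPath w c s 1 y) (c 2) := by
  have hcc : 0 < wedge (c 1) (c 1) := by rw [hc]; simpa using hl
  have h12 : wedge (c 1) (c 2) = 0 := by rw [hc]; simp
  have h21 : wedge (c 2) (c 1) = 0 := by rw [hc]; simp
  have a1 : ∀ y, 0 < wedge (w 1 y) (c 1) := by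
    apply pos_of_ne_zero' (hw.form 1).1.continuous (hcoh 1) hcc
    intro y hy
    have := wedge_self_nonpos_of_orthogonal' (P1 y) (c 1)
      (by rw [wedge_comm]; exact h01 y)
      (by rw [wedge_comm]; exact hy) h12
    linarith
  exact ((P1 y).swap.stage hcc (h01 y) h21 (a1 y).le hs).swap

lemma stage3 (hw : IsHypersymplectic w) (hl : 0 < l)
    (hc : ∀ i j, wedge (c i) (c j) = if i = j then l else 0)
    (hcoh : ∀ i, Cohomologous (fun _ => c i) (w i))
    (P2 : ∀ y, Pos3 (w 0 y) (c 1) (c 2))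
    (y : R4) (s : ℝ) (hs : s ∈ Set.Icc (0 : ℝ) 1) :
    Pos3 (linPath w c s 0 y) (c 1) (c 2) := by
  have hcc : 0 < wedge (c 0) (c 0) := by rw [hc]; simpa using hl
  have h01 : wedge (c 0) (c 1) = 0 := by rw [hc]; simp
  have h02 : wedge (c 0) (c 2) = 0 := by rw [hc]; simp
  have h10 : wedge (c 1) (c 0) = 0 := by rw [hc]; simp
  have h20 : wedge (c 2) (c 0) = 0 := by rw [hc]; simp
  have a0 : ∀ y, 0 < wedge (w 0 y) (c 0) := by
    apply pos_of_ne_zero' (hw.form 0).1.continuous (hcoh 0) hcc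
    intro y hy
    have := wedge_self_nonpos_of_orthogonal' (P2 y) (c 0)
      (by rw [wedge_comm]; exact hy) h01 h02
    linarith
  exact ((P2 y).rotate.stage hcc h10 h20 (a0 y).le hs).rotate.rotate

end stages

lemma tau_eq_zero {i : Fin 3} {t : ℝ} (h : 3 * t ≤ 2 - (i : ℕ)) : tau i t = 0 := by
  unfold tau; apply Real.smoothTransition.zero_of_nonpos; linarith

lemma tau_eq_one {i : Fin 3} {t : ℝ} (h : 3 - (i : ℕ) ≤ 3 * t) : tau i t = 1 := by
  unfold tau; apply Real.smoothTransition.one_of_one_le; linarith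

theorem stagePath_pos {w : Fin 3 → R4 → Alt 2} (hw : IsHypersymplectic w)
    {c : Fin 3 → Alt 2} {l : ℝ} (hl : 0 < l)
    (hc : ∀ i j, wedge (c i) (c j) = if i = j then l else 0)
    (hcoh : ∀ i, Cohomologous (fun _ => c i) (w i))
    (htri : ∀ i j, i < j → ∀ x, wedge (w i x) (c j) = 0) (t : ℝ) (x : R4) :
    Pos3 (stagePath w c t 0 x) (stagePath w c t 1 x) (stagePath w c t 2 x) := by
  have h01 := htri 0 1 (by decide)
  have h02 := htri 0 2 (by decide)
  have h12 := htri 1 2 (by decide)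
  have S1 := stage1 hw hl hc hcoh h02 h12
  have P1 : ∀ y, Pos3 (w 0 y) (w 1 y) (c 2) := by
    intro y
    have := S1 y 1 ⟨zero_le_one, le_rfl⟩
    rwa [linPath_one] at this
  have S2 := stage2 hw hl hc hcoh P1 h01
  have P2 : ∀ y, Pos3 (w 0 y) (c 1) (c 2) := by
    intro y
    have := S2 y 1 ⟨zero_le_one, le_rfl⟩
    rwa [linPath_one] at this
  have S3 := stage3 hw hl hc hcoh P2
  unfold stagePath
  rcases le_total t (1 / 3) with h1 | h1
  · have e0 : tau 0 t = 0 := tau_eq_zero (by norm_num; linarith)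
    have e1 : tau 1 t = 0 := tau_eq_zero (by norm_num; linarith)
    rw [e0, e1, linPath_zero, linPath_zero]
    exact S1 x (tau 2 t) (tau_mem 2 t)
  · have e2 : tau 2 t = 1 := tau_eq_one (by norm_num; linarith)
    rcases le_total t (2 / 3) with h2 | h2
    · have e0 : tau 0 t = 0 := tau_eq_zero (by norm_num; linarith)
      rw [e0, e2, linPath_zero, linPath_one]
      exact S2 x (tau 1 t) (tau_mem 1 t)
    · have e1 : tau 1 t = 1 := tau_eq_one (by norm_num; linarith)
      rw [e1, e2, linPath_one, linPath_one]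
      exact S3 x (tau 0 t) (tau_mem 0 t)

theorem deformation_of_triangular {w : Fin 3 → R4 → Alt 2} (hw : IsHypersymplectic w)
    {c : Fin 3 → Alt 2} {l : ℝ} (hl : 0 < l)
    (hc : ∀ i j, wedge (c i) (c j) = if i = j then l else 0)
    (hcoh : ∀ i, Cohomologous (fun _ => c i) (w i))
    (htri : ∀ i j, i < j → ∀ x, wedge (w i x) (c j) = 0) :
    IsCohomologousDeformation w (stagePath w c) ∧ IsHyperkahlerTriple (stagePath w c 1) := by
  refine ⟨⟨?_, fun t _ => ⟨fun i => linPath_form hw.form c _ i,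
    fun i => linPath_closed hw.form hw.closed c _ i,
    fun x => posDef_of_pos3 (v := fun i => stagePath w c t i x)
      (stagePath_pos hw hl hc hcoh htri t x)⟩, ?_,
    fun t _ i => linPath_cohom hcoh _ i⟩, ?_⟩
  · intro i
    unfold stagePath linPath
    have h1 : ContDiff ℝ ∞ (fun p : ℝ × R4 => tau i p.1) := (tau_contDiff i).comp contDiff_fst
    exact ((contDiff_const.sub h1).smul ((hw.form i).1.comp contDiff_snd)).add
      (h1.smul contDiff_const)
  · ext i x : 2
    have : tau i 0 = 0 := by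
      apply tau_eq_zero
      fin_cases i <;> norm_num
    rw [stagePath, this, linPath_zero]
  · have : stagePath w c 1 = fun i _ => c i := by
      ext i x : 2
      have : tau i 1 = 1 := by
        apply tau_eq_one
        fin_cases i <;> norm_num
      rw [stagePath, this, linPath_one]
    rw [this]
    exact const_hyperkahler hl hc

end Vale.Agent.Lib.P247
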