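import Vale.Agent.Lib.P247.Calculus

open scoped ContDiff
open MeasureTheory

namespace Vale.Agent.Lib.P247

lemma extDeriv_const' {k : ℕ} (c : Alt k) (x : R4) : extDeriv (fun _ : R4 => c) x = 0 := by
  ext v
  simp [extDeriv, ContinuousAlternatingMap.alternatizeUncurryFin_apply]

/-- the linear path from `w` to the constant triple `c` -/
noncomputable def linPath (w : Fin 3 → R4 → Alt 2) (c : Fin 3 → Alt 2) (t : ℝ) (i : Fin 3)
    (x : R4) : Alt 2 := (1 - t) • w i x + t • c i

lemma linPath_form {w : Fin 3 → R4 → Alt 2} (hw : ∀ i, IsFormOnTorus (w i)) (c : Fin 3 → Alt 2)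
    (t : ℝ) (i : Fin 3) : IsFormOnTorus (linPath w c t i) := by
  constructor
  · unfold linPath
    exact ((contDiff_const (c := (1 - t))).smul (hw i).1).add contDiff_const
  · intro k x
    simp [linPath, (hw i).2 k x]

lemma linPath_closed {w : Fin 3 → R4 → Alt 2} (hw : ∀ i, IsFormOnTorus (w i))
    (hcl : ∀ i x, extDeriv (w i) x = 0) (c : Fin 3 → Alt 2)
    (t : ℝ) (i : Fin 3) (x : R4) : extDeriv (linPath w c t i) x = 0 := by
  have hd : DifferentiableAt ℝ (w i) x := ((hw i).1.differentiable (by simp)).differentiableAt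
  have h1 : linPath w c t i = ((1 - t) • w i) + (fun _ => t • c i) := by
    ext1 y; simp [linPath]
  rw [h1, extDeriv_add (hd.const_smul _) (differentiableAt_const _), extDeriv_smul, hcl,
    extDeriv_const']
  simp

lemma linPath_smooth {w : Fin 3 → R4 → Alt 2} (hw : ∀ i, IsFormOnTorus (w i))
    (c : Fin 3 → Alt 2) (i : Fin 3) :
    ContDiff ℝ ∞ (fun p : ℝ × R4 => linPath w c p.1 i p.2) := by
  unfold linPath
  exact ((contDiff_const.sub contDiff_fst).smul ((hw i).1.comp contDiff_snd)).add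
    (contDiff_fst.smul contDiff_const)

lemma linPath_cohom {w : Fin 3 → R4 → Alt 2} {c : Fin 3 → Alt 2}
    (hcoh : ∀ i, Cohomologous (fun _ => c i) (w i)) (t : ℝ) (i : Fin 3) :
    Cohomologous (w i) (linPath w c t i) := by
  obtain ⟨β, hβ, h⟩ := hcoh i
  refine ⟨(-t) • β, ⟨contDiff_const.smul hβ.1, ?_⟩, ?_⟩
  · intro k x
    simp [hβ.2 k x]
  · intro x
    rw [extDeriv_smul, ← h x]
    simp only [linPath]
    module

lemma linPath_wedge (w : Fin 3 → R4 → Alt 2) (c : Fin 3 → Alt 2) (t : ℝ) (i j : Fin 3) (x : R4) :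
    wedge (linPath w c t i x) (linPath w c t j x)
      = (1 - t) ^ 2 * wedge (w i x) (w j x)
        + (t * (1 - t)) * (wedge (w i x) (c j) + wedge (w j x) (c i))
        + t ^ 2 * wedge (c i) (c j) := by
  simp only [linPath, wedge_add_left, wedge_add_right, wedge_smul_left, wedge_smul_right,
    wedge_comm (c i) (w j x)]
  ring

lemma posDef_combination {Q M : Matrix (Fin 3) (Fin 3) ℝ} (hQ : Q.PosDef) (hM : M.PosSemidef)
    {l : ℝ} (hl : 0 < l) {t : ℝ} (ht : t ∈ Set.Icc (0 : ℝ) 1) :
    ((1 - t) ^ 2 • Q + (t * (1 - t)) • M + (t ^ 2 * l) • (1 : Matrix (Fin 3) (Fin 3) ℝ)).PosDef := by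
  have h1 : ((t * (1 - t)) • M).PosSemidef :=
    hM.smul (mul_nonneg ht.1 (by linarith [ht.2]))
  rcases eq_or_lt_of_le ht.2 with h | h
  · subst h
    have : ((1:ℝ) ^ 2 * l) • (1 : Matrix (Fin 3) (Fin 3) ℝ) |>.PosDef :=
      Matrix.PosDef.one.smul (by positivity)
    simpa using this
  · have h0 : 0 < 1 - t := by linarith
    have h2 : ((1 - t) ^ 2 • Q).PosDef := hQ.smul (by positivity)
    have h3 : ((t ^ 2 * l) • (1 : Matrix (Fin 3) (Fin 3) ℝ)).PosSemidef :=
      Matrix.PosDef.one.posSemidef.smul (by positivity)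
    exact (h2.add_posSemidef h1).add_posSemidef h3

/-- **Cone criterion.** -/
theorem linPath_hypersymplectic {w : Fin 3 → R4 → Alt 2} (hw : IsHypersymplectic w)
    {c : Fin 3 → Alt 2} {l : ℝ} (hl : 0 < l)
    (hc : ∀ i j, wedge (c i) (c j) = if i = j then l else 0)
    (hcone : ∀ x, (Matrix.of fun i j => wedge (w i x) (c j) + wedge (w j x) (c i)).PosSemidef)
    {t : ℝ} (ht : t ∈ Set.Icc (0 : ℝ) 1) : IsHypersymplectic (linPath w c t) where
  form := linPath_form hw.form c t
  closed := linPath_closed hw.form hw.closed c t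
  pos := by
    intro x
    have := posDef_combination (hw.pos x) (hcone x) hl ht
    convert this using 1
    ext i j
    simp only [Matrix.of_apply, linPath_wedge, hc, Matrix.add_apply, Matrix.smul_apply,
      smul_eq_mul, Matrix.one_apply]
    split_ifs <;> ring

theorem const_hyperkahler {c : Fin 3 → Alt 2} {l : ℝ} (hl : 0 < l)
    (hc : ∀ i j, wedge (c i) (c j) = if i = j then l else 0) :
    IsHyperkahlerTriple (fun i _ => c i) := by
  refine ⟨⟨fun i => ⟨contDiff_const, fun _ _ => rfl⟩, fun i x => extDeriv_const' _ _, ?_⟩,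
    fun _ => l, fun _ => hl, fun x i j => hc i j⟩
  intro x
  have : (l • (1 : Matrix (Fin 3) (Fin 3) ℝ)).PosDef := Matrix.PosDef.one.smul hl
  convert this using 1
  ext i j
  simp [hc, Matrix.one_apply]

theorem deformation_of_cone {w : Fin 3 → R4 → Alt 2} (hw : IsHypersymplectic w)
    {c : Fin 3 → Alt 2} {l : ℝ} (hl : 0 < l)
    (hc : ∀ i j, wedge (c i) (c j) = if i = j then l else 0)
    (hcoh : ∀ i, Cohomologous (fun _ => c i) (w i))
    (hcone : ∀ x, (Matrix.of fun i j => wedge (w i x) (c j) + wedge (w j x) (c i)).PosSemidef) :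
    IsCohomologousDeformation w (linPath w c) ∧ IsHyperkahlerTriple (linPath w c 1) := by
  refine ⟨⟨linPath_smooth hw.form c, fun t ht => linPath_hypersymplectic hw hl hc hcone ht, ?_,
    fun t _ i => linPath_cohom hcoh t i⟩, ?_⟩
  · ext i x : 2
    simp [linPath]
  · have : linPath w c 1 = fun i _ => c i := by
      ext i x : 2
      simp [linPath]
    rw [this]
    exact const_hyperkahler hl hc

end Vale.Agent.Lib.P247
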