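import Vale.Agent.Lib.P247.Path

open scoped ContDiff
open MeasureTheory

namespace Vale.Agent.Lib.P247

lemma continuous_coef {η : R4 → Alt 2} (h : Continuous η) (i j : Fin 4) :
    Continuous (fun x => coef (η x) i j) := by
  unfold coef
  have : Continuous (fun y => (ContinuousAlternatingMap.apply ℝ R4 ℝ ![e i, e j]) (η y)) :=
    (ContinuousLinearMap.continuous _).comp h
  simpa using this

lemma continuous_wedge_const {η : R4 → Alt 2} (h : Continuous η) (c : Alt 2) :
    Continuous (fun x => wedge (η x) c) := by
  unfold wedge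
  have := fun i j => continuous_coef h i j
  fun_prop

lemma continuous_extDeriv {β : R4 → Alt 1} (h : ContDiff ℝ ∞ β) : Continuous (extDeriv β) := by
  have : extDeriv β = fun x =>
      ContinuousAlternatingMap.alternatizeUncurryFinCLM ℝ R4 ℝ (fderiv ℝ β x) := rfl
  rw [this]
  exact (ContinuousLinearMap.continuous _).comp (h.continuous_fderiv (by simp))

lemma volume_cube : (volume (Set.Icc (0 : R4) 1)).toReal = 1 := by
  rw [Real.volume_Icc_pi]
  simp

/-- If `η = c' + dβ` on the torus, then `∫ η ∧ c = c' ∧ c`. -/
lemma integral_wedge_of_cohomologous {η : R4 → Alt 2} {c' : Alt 2}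
    (hcoh : Cohomologous (fun _ => c') η) (c : Alt 2) :
    ∫ x in Set.Icc (0 : R4) 1, wedge (η x) c = wedge c' c := by
  obtain ⟨β, hβ, h⟩ := hcoh
  have h1 : ∀ x, wedge (η x) c = wedge c' c + wedge (extDeriv β x) c := by
    intro x
    rw [← h x, wedge_sub_left]
    ring
  simp only [h1]
  have hcont : Continuous (fun x => wedge (extDeriv β x) c) :=
    continuous_wedge_const (continuous_extDeriv hβ.1) c
  rw [integral_add continuous_const.integrableOn_Icc hcont.integrableOn_Icc,
    integral_wedge_extDeriv hβ]
  simp [volume_cube, Measure.real]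

/-- A continuous nowhere vanishing function on `ℝ⁴` with positive integral over the cube
is positive. -/
lemma pos_of_ne_zero_of_integral_pos {a : R4 → ℝ} (hc : Continuous a) (h0 : ∀ x, a x ≠ 0)
    (hint : 0 < ∫ x in Set.Icc (0 : R4) 1, a x) (x : R4) : 0 < a x := by
  have hex : ∃ y, 0 < a y := by
    by_contra hcon
    push Not at hcon
    have : ∫ x in Set.Icc (0 : R4) 1, a x ≤ 0 := integral_nonpos hcon
    linarith
  obtain ⟨y, hy⟩ := hex
  by_contra hx
  push Not at hx
  have : (0 : ℝ) ∈ Set.range a := intermediate_value_univ x y hc ⟨hx, hy.le⟩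
  obtain ⟨z, hz⟩ := this
  exact h0 z hz

/-- the pairing `w ∧ c_i` is positive if `w` is orthogonal to the other `c_j`, has positive
square and is cohomologous to `c_i` -/
lemma pairing_pos {η : R4 → Alt 2} (hη : Continuous η) {c : Fin 3 → Alt 2} {l : ℝ} (hl : 0 < l)
    (hc : ∀ i j, wedge (c i) (c j) = if i = j then l else 0) (i : Fin 3)
    (hcoh : Cohomologous (fun _ => c i) η)
    (horth : ∀ j, j ≠ i → ∀ x, wedge (η x) (c j) = 0)
    (hpos : ∀ x, 0 < wedge (η x) (η x)) (x : R4) : 0 < wedge (η x) (c i) := by
  apply pos_of_ne_zero_of_integral_pos (continuous_wedge_const hη (c i))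
  · intro y hy
    have hn : ∀ j, wedge (η y) (c j) = 0 := by
      intro j
      by_cases hj : j = i
      · rw [hj]; exact hy
      · exact horth j hj y
    have := wedge_self_nonpos_of_orthogonal c l hl hc (η y) hn
    linarith [hpos y]
  · rw [integral_wedge_of_cohomologous hcoh, hc]
    simpa using hl

theorem deformation_of_typeOneOne {w : Fin 3 → R4 → Alt 2} (hw : IsHypersymplectic w)
    {c : Fin 3 → Alt 2} {l : ℝ} (hl : 0 < l)
    (hc : ∀ i j, wedge (c i) (c j) = if i = j then l else 0)
    (hcoh : ∀ i, Cohomologous (fun _ => c i) (w i))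
    (h11 : ∀ i j, i ≠ j → ∀ x, wedge (w i x) (c j) = 0) :
    IsCohomologousDeformation w (linPath w c) ∧ IsHyperkahlerTriple (linPath w c 1) := by
  apply deformation_of_cone hw hl hc hcoh
  intro x
  have hpos : ∀ i, 0 < wedge (w i x) (c i) := by
    intro i
    apply pairing_pos (hw.form i).1.continuous hl hc i (hcoh i)
    · intro j hj y
      exact h11 i j (Ne.symm hj) y
    · intro y
      have := (hw.pos y).diag_pos (i := i)
      simpa using this
  have : (Matrix.diagonal fun i => 2 * wedge (w i x) (c i)).PosSemidef := by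
    apply Matrix.PosSemidef.diagonal
    intro i
    have := hpos i
    simp only [Pi.zero_apply]
    linarith
  convert this using 1
  ext i j
  by_cases hij : i = j
  · subst hij
    simp
    ring
  · simp [Matrix.diagonal_apply_ne _ hij, h11 i j hij x, h11 j i (Ne.symm hij) x]

end Vale.Agent.Lib.P247
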