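import Vale.Agent.Lib.P247.Positivity

open scoped ContDiff
open MeasureTheory

namespace Vale.Agent.Lib.P247

/-- coefficient functions of a two-form -/
def cf (η : R4 → Alt 2) (i j : Fin 4) (y : R4) : ℝ := coef (η y) i j

lemma cf_contDiff {η : R4 → Alt 2} (h : ContDiff ℝ ∞ η) (i j : Fin 4) :
    ContDiff ℝ ∞ (cf η i j) := by
  unfold cf coef
  have : ContDiff ℝ ∞ (fun y => (ContinuousAlternatingMap.apply ℝ R4 ℝ ![e i, e j]) (η y)) :=
    (ContinuousLinearMap.contDiff _).comp h
  simpa using this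

lemma cf_periodic {η : R4 → Alt 2} (h : Periodic η) (i j : Fin 4) : Periodic (cf η i j) := by
  intro k x
  simp [cf, h k x]

lemma extDeriv_two_apply {η : R4 → Alt 2} {x : R4} (h : DifferentiableAt ℝ η x) (i j k : Fin 4) :
    extDeriv η x ![e i, e j, e k]
      = fderiv ℝ (cf η j k) x (e i) - fderiv ℝ (cf η i k) x (e j) + fderiv ℝ (cf η i j) x (e k) := by
  rw [extDeriv_apply h]
  rw [Fin.sum_univ_three]
  have h0 : (0 : Fin 3).removeNth ![e i, e j, e k] = ![e j, e k] := by
    ext m; fin_cases m <;> simp [Fin.removeNth]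
  have h1 : (1 : Fin 3).removeNth ![e i, e j, e k] = ![e i, e k] := by
    ext m; fin_cases m <;> simp [Fin.removeNth, Fin.succAbove]
  have h2 : (2 : Fin 3).removeNth ![e i, e j, e k] = ![e i, e j] := by
    ext m; fin_cases m <;> simp [Fin.removeNth, Fin.succAbove]
  simp only [h0, h1, h2]
  simp
  rfl

lemma fderiv_bil3 {a b c f g h : R4 → ℝ} {x : R4}
    (ha : DifferentiableAt ℝ a x) (hb : DifferentiableAt ℝ b x) (hc : DifferentiableAt ℝ c x)
    (hf : DifferentiableAt ℝ f x)
    (hg : DifferentiableAt ℝ g x) (hh : DifferentiableAt ℝ h x) (s1 s2 s3 : ℝ) (v : R4) :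
    fderiv ℝ (fun y => s1 * (a y * f y) + s2 * (b y * g y) + s3 * (c y * h y)) x v
      = s1 * (a x * fderiv ℝ f x v + f x * fderiv ℝ a x v)
        + s2 * (b x * fderiv ℝ g x v + g x * fderiv ℝ b x v)
        + s3 * (c x * fderiv ℝ h x v + h x * fderiv ℝ c x v) := by
  have : HasFDerivAt (fun y => s1 * (a y * f y) + s2 * (b y * g y) + s3 * (c y * h y))
      (s1 • (a x • fderiv ℝ f x + f x • fderiv ℝ a x)
        + s2 • (b x • fderiv ℝ g x + g x • fderiv ℝ b x)
        + s3 • (c x • fderiv ℝ h x + h x • fderiv ℝ c x)) x :=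
    (((ha.hasFDerivAt.mul hf.hasFDerivAt).const_mul s1).add
      ((hb.hasFDerivAt.mul hg.hasFDerivAt).const_mul s2)).add
      ((hc.hasFDerivAt.mul hh.hasFDerivAt).const_mul s3)
  rw [this.fderiv]
  simp
  ring

/-- the vector field dual to the three-form `α ∧ η` -/
def dualField' (α : R4 → Alt 1) (η : R4 → Alt 2) (y : R4) : Fin 4 → ℝ :=
  ![1 * (cf η 2 3 y * comp α 1 y) + (-1) * (cf η 1 3 y * comp α 2 y) + 1 * (cf η 1 2 y * comp α 3 y),
    (-1) * (cf η 2 3 y * comp α 0 y) + 1 * (cf η 0 3 y * comp α 2 y)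
      + (-1) * (cf η 0 2 y * comp α 3 y),
    1 * (cf η 1 3 y * comp α 0 y) + (-1) * (cf η 0 3 y * comp α 1 y) + 1 * (cf η 0 1 y * comp α 3 y),
    (-1) * (cf η 1 2 y * comp α 0 y) + 1 * (cf η 0 2 y * comp α 1 y)
      + (-1) * (cf η 0 1 y * comp α 2 y)]

lemma wedge_extDeriv_eq_div' {α : R4 → Alt 1} (h : ContDiff ℝ ∞ α) {η : R4 → Alt 2}
    (hη : ContDiff ℝ ∞ η) (hcl : ∀ x, extDeriv η x = 0) (x : R4) :
    wedge (extDeriv α x) (η x) = ∑ i, fderiv ℝ (fun y => dualField' α η y i) x (e i) := by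
  have hd : DifferentiableAt ℝ α x := (h.differentiable (by simp)).differentiableAt
  have hdη : DifferentiableAt ℝ η x := (hη.differentiable (by simp)).differentiableAt
  have hc : ∀ j, DifferentiableAt ℝ (comp α j) x := fun j =>
    ((comp_contDiff h j).differentiable (by simp)).differentiableAt
  have hf : ∀ i j, DifferentiableAt ℝ (cf η i j) x := fun i j =>
    ((cf_contDiff hη i j).differentiable (by simp)).differentiableAt
  rw [Fin.sum_univ_four]
  have e0 : (fun y => dualField' α η y 0) = fun y =>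
      1 * (cf η 2 3 y * comp α 1 y) + (-1) * (cf η 1 3 y * comp α 2 y)
        + 1 * (cf η 1 2 y * comp α 3 y) := rfl
  have e1 : (fun y => dualField' α η y 1) = fun y =>
      (-1) * (cf η 2 3 y * comp α 0 y) + 1 * (cf η 0 3 y * comp α 2 y)
      + (-1) * (cf η 0 2 y * comp α 3 y) := rfl
  have e2 : (fun y => dualField' α η y 2) = fun y =>
      1 * (cf η 1 3 y * comp α 0 y) + (-1) * (cf η 0 3 y * comp α 1 y)
        + 1 * (cf η 0 1 y * comp α 3 y) := rfl
  have e3 : (fun y => dualField' α η y 3) = fun y =>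
      (-1) * (cf η 1 2 y * comp α 0 y) + 1 * (cf η 0 2 y * comp α 1 y)
      + (-1) * (cf η 0 1 y * comp α 2 y) := rfl
  rw [e0, e1, e2, e3]
  rw [fderiv_bil3 (hf _ _) (hf _ _) (hf _ _) (hc _) (hc _) (hc _),
    fderiv_bil3 (hf _ _) (hf _ _) (hf _ _) (hc _) (hc _) (hc _),
    fderiv_bil3 (hf _ _) (hf _ _) (hf _ _) (hc _) (hc _) (hc _),
    fderiv_bil3 (hf _ _) (hf _ _) (hf _ _) (hc _) (hc _) (hc _)]
  have c123 := extDeriv_two_apply hdη 1 2 3
  have c023 := extDeriv_two_apply hdη 0 2 3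
  have c013 := extDeriv_two_apply hdη 0 1 3
  have c012 := extDeriv_two_apply hdη 0 1 2
  rw [hcl x] at c123 c023 c013 c012
  simp only [ContinuousAlternatingMap.coe_zero, Pi.zero_apply] at c123 c023 c013 c012
  unfold wedge
  simp only [coef_extDeriv hd]
  have hcf : ∀ i j, coef (η x) i j = cf η i j x := fun i j => rfl
  simp only [hcf]
  linear_combination (-(comp α 0 x)) * c123 + (comp α 1 x) * c023 - (comp α 2 x) * c013
    + (comp α 3 x) * c012

lemma integral_wedge_extDeriv_closed {α : R4 → Alt 1} (h : IsFormOnTorus α) {η : R4 → Alt 2}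
    (hη : IsFormOnTorus η) (hcl : ∀ x, extDeriv η x = 0) :
    ∫ x in Set.Icc (0 : R4) 1, wedge (extDeriv α x) (η x) = 0 := by
  simp only [wedge_extDeriv_eq_div' h.1 hη.1 hcl]
  apply integral_divergence_periodic
  · intro i
    have hc : ∀ j, ContDiff ℝ ∞ (comp α j) := fun j => comp_contDiff h.1 j
    have hf : ∀ i j, ContDiff ℝ ∞ (cf η i j) := fun i j => cf_contDiff hη.1 i j
    fin_cases i
    · exact ((contDiff_const.mul ((hf _ _).mul (hc _))).add
        (contDiff_const.mul ((hf _ _).mul (hc _)))).add (contDiff_const.mul ((hf _ _).mul (hc _)))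
    · exact ((contDiff_const.mul ((hf _ _).mul (hc _))).add
        (contDiff_const.mul ((hf _ _).mul (hc _)))).add (contDiff_const.mul ((hf _ _).mul (hc _)))
    · exact ((contDiff_const.mul ((hf _ _).mul (hc _))).add
        (contDiff_const.mul ((hf _ _).mul (hc _)))).add (contDiff_const.mul ((hf _ _).mul (hc _)))
    · exact ((contDiff_const.mul ((hf _ _).mul (hc _))).add
        (contDiff_const.mul ((hf _ _).mul (hc _)))).add (contDiff_const.mul ((hf _ _).mul (hc _)))
  · intro i k x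
    have hc : ∀ j, comp α j (x + fun j => (k j : ℝ)) = comp α j x :=
      fun j => comp_periodic h.2 j k x
    have hf : ∀ i j, cf η i j (x + fun j => (k j : ℝ)) = cf η i j x :=
      fun i j => cf_periodic hη.2 i j k x
    simp only [dualField', hc, hf]

end Vale.Agent.Lib.P247
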